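import Vale.Agent.P011.H44.C2.Fin
import Vale.Agent.P011.H707.C2.Alg

/-!
# Characteristic two, LOC in the letters of the reduction
-/

open Module

set_option linter.unusedSectionVars false

namespace Vale.Agent.P011.H44.C2

open Vale.Agent.P011.H738 Vale.Agent.P011.H271 Vale.Agent.P011.H698

variable {k K A : Type} [Field k] [Field K] [StarRing K] [Ring A] [StarRing A]
  [Algebra k K] [Algebra k A] [Algebra K A] [IsScalarTower k K A] [StarModule K A] {N n : ℕ}

theorem un_of {B : Basis (Fin N) k A} {v : Place k} {x : A} (h : UnR B v x) :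
    H707.C2.Un B v x := by
  obtain ⟨y, h1, h2, h3, h4⟩ := h
  exact ⟨h3, y, h1, h2, h4⟩

/-- **(R3) LOC in characteristic two.** -/
theorem locF2 [GFF k] (h2 : (2 : k) = 0) (hA : Anis k K A n) {m : ℕ} (hm : m ≠ 0)
    (hn : n = 2 * m) {I : A} {ν : k} (hs : star I = I + 1)
    (hI : I * I = I + algebraMap k A ν) (hν : ∀ z : K, z * z ≠ z + algebraMap k K ν)
    (hdiv : ∀ c : A, c * I = I * c → c ≠ 0 → IsUnit c) (B : Basis (Fin N) k A) :
    ∃ (S₁ : Set (Place k)) (J : Set A), S₁.Finite ∧ J.Finite ∧ J ⊆ H707.C2.Wi I ∧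
      (∀ y ∈ J, IsUnit (1 + y) ∧ IsUnit (I + (I + 1) * (y * y))) ∧
      ∀ v ∉ S₁, ∀ x : A, x * star x = 1 → Bd B v 1 x →
        ∃ y ∈ J, H707.C2.Un B v (1 + y) ∧ H707.C2.Un B v (I + (I + 1) * (y * y)) ∧
          H707.C2.Un B v (H707.C2.cc I x * (I + (I + 1) * (y * y)) +
            (x + H707.C2.cc I x) * y) := by
  have d2 : ∀ x : A, x + x = 0 := add_self_of_two h2
  obtain ⟨S₁, J, h1, h3, h4, h5, h6⟩ := loc2' h2 hA hm hn hs (ν := ν) (by
    rw [hI, add_comm I, add_assoc, d2, add_zero]) hν hdiv B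
  refine ⟨S₁, J, h1, h3, h4, h5, fun v hv x hx hxb => ?_⟩
  obtain ⟨y, hy, h7, h8, h9⟩ := h6 v hv x hx hxb
  refine ⟨y, hy, un_of h7, un_of h8, ?_⟩
  have e1 : H707.C2.cc I x = x * I + I * x + x := rfl
  have e2 : x + (x * I + I * x + x) = x * I + I * x := by
    calc x + (x * I + I * x + x) = x * I + I * x + (x + x) := by abel
      _ = _ := by rw [d2, add_zero]
  rw [e1, e2]
  exact un_of h9

end Vale.Agent.P011.H44.C2
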