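import Vale.Agent.P011.H44.C2.Pt

/-!
# Characteristic two: a unit which conjugates `I` to `I + 1`
-/

open Module

set_option linter.unusedSectionVars false

namespace Vale.Agent.P011.H44.C2

open Vale.Agent.P011.H738

variable {k K A : Type} [Field k] [Field K] [StarRing K] [Ring A] [StarRing A]
  [Algebra k K] [Algebra k A] [Algebra K A] [IsScalarTower k K A] [StarModule K A] {n : ℕ}

theorem add_self_of_two (h2 : (2 : k) = 0) (x : A) : x + x = 0 := by
  rw [← two_smul k x, h2, zero_smul]

/-- An element which does not commute with `I` gives a unit `w` with `w * I = (I + 1) * w`. -/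
theorem exists_unit_w (hA : Anis k K A n) (h2 : (2 : k) = 0) {I : A} {ν : k}
    (hs : star I = I + 1) (hI : I * I = I + algebraMap k A ν)
    (hdiv : ∀ c : A, c * I = I * c → c ≠ 0 → IsUnit c) (hnc : ∃ y : A, y * I ≠ I * y) :
    ∃ w : A, IsUnit w ∧ w * I = (I + 1) * w := by
  have d2 : ∀ x : A, x + x = 0 := add_self_of_two h2
  obtain ⟨y, hy⟩ := hnc
  obtain ⟨w, hw⟩ : ∃ w, w = y * I + I * y := ⟨_, rfl⟩
  have hw0 : w ≠ 0 := by
    intro h0
    apply hy
    rw [hw] at h0
    calc y * I = y * I + (I * y + I * y) := by rw [d2, add_zero]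
      _ = (y * I + I * y) + I * y := by rw [add_assoc]
      _ = I * y := by rw [h0, zero_add]
  have hwI : w * I = (I + 1) * w := by
    have hc : algebraMap k A ν * y = y * algebraMap k A ν := Algebra.commutes _ _
    have e1 : w * I = y * I + y * algebraMap k A ν + I * y * I := by
      rw [hw, add_mul, mul_assoc, hI, mul_add]
    have e2 : (I + 1) * w = I * y * I + (I * y + algebraMap k A ν * y) + (y * I + I * y) := by
      rw [hw, add_mul, one_mul, mul_add, ← mul_assoc, ← mul_assoc, hI, add_mul]
    rw [e1, e2, hc]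
    calc y * I + y * algebraMap k A ν + I * y * I =
          I * y * I + y * algebraMap k A ν + y * I + 0 := by abel
      _ = I * y * I + y * algebraMap k A ν + y * I + (I * y + I * y) := by rw [d2]
      _ = _ := by abel
  -- the other relations
  have hIw : I * w = w * (I + 1) := by
    calc I * w = (I + 1) * w - w := by rw [add_mul, one_mul, add_sub_cancel_right]
      _ = w * I - w + (w + w) := by rw [hwI, d2, add_zero]
      _ = w * (I + 1) := by rw [mul_add, mul_one]; abel
  have hsw : star w * I = (I + 1) * star w := by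
    have h3 := congrArg star hwI
    rw [star_mul, star_mul, star_add, star_one, hs] at h3
    -- `(I + 1) * star w = star w * (I + 1 + 1)`
    rw [h3, add_assoc, d2, add_zero]
  have hIsw : I * star w = star w * (I + 1) := by
    calc I * star w = (I + 1) * star w - star w := by rw [add_mul, one_mul, add_sub_cancel_right]
      _ = star w * I - star w + (star w + star w) := by rw [hsw, d2, add_zero]
      _ = star w * (I + 1) := by rw [mul_add, mul_one]; abel
  have ha0 : star w * w ≠ 0 := fun h => hw0 (hA.anisotropic w h)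
  have hb0 : w * star w ≠ 0 := by
    intro h
    have h3 := hA.anisotropic (star w) (by rw [star_star]; exact h)
    exact hw0 (star_eq_zero.mp h3)
  have hac : star w * w * I = I * (star w * w) := by
    rw [mul_assoc, hwI, ← mul_assoc, ← mul_assoc, hIsw]
  have hbc : w * star w * I = I * (w * star w) := by
    rw [mul_assoc, hsw, ← mul_assoc, ← mul_assoc, hIw]
  obtain ⟨a, ha⟩ := hdiv _ hac ha0
  obtain ⟨b, hb⟩ := hdiv _ hbc hb0
  have h5 : ((a⁻¹ : Aˣ) : A) * star w * w = 1 := by
    rw [mul_assoc, ← ha, Units.inv_mul]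
  have h6 : w * (star w * ((b⁻¹ : Aˣ) : A)) = 1 := by
    rw [← mul_assoc, ← hb, Units.mul_inv]
  have h7 : star w * ((b⁻¹ : Aˣ) : A) = ((a⁻¹ : Aˣ) : A) * star w := by
    calc star w * ((b⁻¹ : Aˣ) : A) = ((a⁻¹ : Aˣ) : A) * star w * w *
          (star w * ((b⁻¹ : Aˣ) : A)) := by rw [h5, one_mul]
      _ = ((a⁻¹ : Aˣ) : A) * star w * (w * (star w * ((b⁻¹ : Aˣ) : A))) := by
          simp only [mul_assoc]
      _ = _ := by rw [h6, mul_one]
  refine ⟨w, ⟨⟨w, star w * ((b⁻¹ : Aˣ) : A), h6, ?_⟩, rfl⟩, hwI⟩
  rw [h7]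
  exact h5

/-- If `X ^ 2 + X + ν` has no root in the centre, `I` is not central. -/
theorem exists_nc (hA : Anis k K A n) {I : A} {ν : k} (hI : I * I = I + algebraMap k A ν)
    (hν : ∀ z : K, z * z ≠ z + algebraMap k K ν) : ∃ y : A, y * I ≠ I * y := by
  by_contra hcon
  push Not at hcon
  have := hA.central
  have := hA.simple
  have h2 : I ∈ Subalgebra.center K A := by
    rw [Subalgebra.mem_center_iff]
    exact hcon
  rw [Algebra.IsCentral.center_eq_bot, Algebra.mem_bot] at h2
  obtain ⟨c, hc⟩ := h2
  refine hν c ((algebraMap K A).injective ?_)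
  rw [map_mul, map_add, hc, hI, ← IsScalarTower.algebraMap_apply]

end Vale.Agent.P011.H44.C2
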