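import Vale.Agent.P011.H44.C2.Loc
import Vale.Agent.P011.H44.C2.UnitW
import Vale.Agent.P011.H465.C2.W2

/-!
# Characteristic two, LOC: the final theorem
-/

open Module MvPolynomial

set_option linter.unusedSectionVars false

namespace Vale.Agent.P011.H44.C2

open Vale.Agent.P011.H738 Vale.Agent.P011.H271 Vale.Agent.P011.H698

/-- An element of trace one. -/
theorem exists_kappa {K : Type} [Field K] [StarRing K] (h : ∃ x : K, star x ≠ x) :
    ∃ κ : K, κ + star κ = 1 := by
  obtain ⟨u, hu⟩ := h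
  have hex : ∃ x : K, x + star x ≠ 0 := by
    by_cases h1 : u + star u = 0
    · refine ⟨u + 1, ?_⟩
      rw [star_add, star_one]
      intro h2
      have h3 : (2 : K) = 0 := by linear_combination h2 - h1
      apply hu
      linear_combination h1 - u * h3
    · exact ⟨u, h1⟩
  obtain ⟨x, hx⟩ := hex
  have ht : star (x + star x) = x + star x := by rw [star_add, star_star, add_comm]
  refine ⟨x / (x + star x), ?_⟩
  rw [star_div₀, ht, ← add_div, div_self hx]

variable {k K A : Type} [Field k] [Field K] [StarRing K] [Ring A] [StarRing A]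
  [Algebra k K] [Algebra k A] [Algebra K A] [IsScalarTower k K A] [StarModule K A] {N n : ℕ}

/-- **LOC in characteristic two** (module (R3)): finitely many elements suffice at almost all
places. -/
theorem loc2 [GFF k] (h2 : (2 : k) = 0) (hA : Anis k K A n) {m : ℕ} (hm : m ≠ 0)
    (hn : n = 2 * m) {I : A} {ν : k} (hs : star I = I + 1)
    (hI : I * I + I = algebraMap k A ν) (hν : ν ≠ 0) {w : A} (hwu : IsUnit w)
    (hw : w * I = (I + 1) * w) (B : Basis (Fin N) k A) :
    ∃ (S₁ : Set (Place k)) (J : Set A), S₁.Finite ∧ J.Finite ∧ J ⊆ WiR I ∧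
      (∀ y ∈ J, IsUnit (1 + y) ∧ IsUnit (I + (I + 1) * (y * y))) ∧
      ∀ v ∉ S₁, ∀ x : A, x * star x = 1 → Bd B v 1 x →
        ∃ y ∈ J, UnR B v (1 + y) ∧ UnR B v (I + (I + 1) * (y * y)) ∧
          UnR B v ((x * I + I * x + x) * (I + (I + 1) * (y * y)) + (x * I + I * x) * y) := by
  have := hA.central
  have := hA.simple
  obtain ⟨κ, hκ⟩ := exists_kappa hA.star_ne
  have hst : ∀ (c : K) (x : A), star (c • x) = star c • star x := fun c x => star_smul c x
  have hk : ∀ c : k, star (algebraMap k K c) = algebraMap k K c :=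
    fun c => (hA.fixed _).mpr ⟨c, rfl⟩
  refine loc_of_geo hA (by omega) B (H465.C2.pw2 hst hk κ I)
    (fun z => H465.C2.pw2_mem h2 hs hI hst hk z) ?_
  intro F _ _ τ Ψ hΨ X hX
  obtain ⟨ω, hω⟩ : ∃ ω : F, ω * ω = ω + τ (algebraMap k K ν) := by
    obtain ⟨ω, hω⟩ := IsAlgClosed.exists_root
      (Polynomial.X ^ 2 - Polynomial.X - Polynomial.C (τ (algebraMap k K ν)) : Polynomial F) (by
        have h1 : (Polynomial.X ^ 2 - Polynomial.X - Polynomial.C (τ (algebraMap k K ν)) :
            Polynomial F) = Polynomial.C 1 * Polynomial.X ^ 2 + Polynomial.C (-1) * Polynomial.X +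
              Polynomial.C (-(τ (algebraMap k K ν))) := by
          simp only [map_one, map_neg]
          ring
        rw [h1, Polynomial.degree_quadratic one_ne_zero]
        norm_num)
    refine ⟨ω, ?_⟩
    rw [Polynomial.IsRoot.def] at hω
    simp only [Polynomial.eval_sub, Polynomial.eval_pow, Polynomial.eval_X,
      Polynomial.eval_C] at hω
    linear_combination hω
  exact H465.C2.exists_polyD2 h2 hst hk hκ hm hn hA.finrank_eq hs hI hν hΨ hω hwu hw B hX

/-- The same when the centralizer of `I` is a division ring. -/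
theorem loc2' [GFF k] (h2 : (2 : k) = 0) (hA : Anis k K A n) {m : ℕ} (hm : m ≠ 0)
    (hn : n = 2 * m) {I : A} {ν : k} (hs : star I = I + 1)
    (hI : I * I + I = algebraMap k A ν) (hν : ∀ z : K, z * z ≠ z + algebraMap k K ν)
    (hdiv : ∀ c : A, c * I = I * c → c ≠ 0 → IsUnit c) (B : Basis (Fin N) k A) :
    ∃ (S₁ : Set (Place k)) (J : Set A), S₁.Finite ∧ J.Finite ∧ J ⊆ WiR I ∧
      (∀ y ∈ J, IsUnit (1 + y) ∧ IsUnit (I + (I + 1) * (y * y))) ∧
      ∀ v ∉ S₁, ∀ x : A, x * star x = 1 → Bd B v 1 x →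
        ∃ y ∈ J, UnR B v (1 + y) ∧ UnR B v (I + (I + 1) * (y * y)) ∧
          UnR B v ((x * I + I * x + x) * (I + (I + 1) * (y * y)) + (x * I + I * x) * y) := by
  have hI' := H465.C2.II_of h2 hI
  have hν0 : ν ≠ 0 := by
    rintro rfl
    refine hν 0 ?_
    rw [map_zero, mul_zero, add_zero]
  obtain ⟨w, hwu, hw⟩ := exists_unit_w hA h2 hs hI' hdiv (exists_nc hA hI' hν)
  exact loc2 h2 hA hm hn hs hI hν0 hwu hw B

end Vale.Agent.P011.H44.C2
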