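import Vale.Agent.P011.H44.C2.Pt2

/-!
# Characteristic two, LOC: finitely many elements suffice at almost all places

Twin of `H974/Loc` for central simple algebras with an involution.
-/

open Module MvPolynomial

set_option linter.unusedSectionVars false

namespace Vale.Agent.P011.H44.C2

open Vale.Agent.P011.H738 Vale.Agent.P011.H271 Vale.Agent.P011.H698

section num

variable {k : Type} [Field k] (v : Place k)

theorem abv_sum_le {ι : Type*} (t : Finset ι) (g : ι → k) (h : ∀ i ∈ t, v.abv (g i) ≤ 1) :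
    v.abv (∑ i ∈ t, g i) ≤ 1 := by
  classical
  induction t using Finset.induction_on with
  | empty => rw [Finset.sum_empty, map_zero]; exact zero_le_one
  | insert a t ha ih =>
    rw [Finset.sum_insert ha]
    exact (v.nonarch _ _).trans (max_le (h a (Finset.mem_insert_self _ _))
      (ih fun i hi => h i (Finset.mem_insert_of_mem hi)))

theorem abv_sum_lt {ι : Type*} (t : Finset ι) (g : ι → k) (h : ∀ i ∈ t, v.abv (g i) < 1) :
    v.abv (∑ i ∈ t, g i) < 1 := by
  classical
  induction t using Finset.induction_on with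
  | empty => rw [Finset.sum_empty, map_zero]; exact zero_lt_one
  | insert a t ha ih =>
    rw [Finset.sum_insert ha]
    exact (v.nonarch _ _).trans_lt (max_lt (h a (Finset.mem_insert_self _ _))
      (ih fun i hi => h i (Finset.mem_insert_of_mem hi)))

theorem abv_det_le {N : ℕ} (M : Matrix (Fin N) (Fin N) k) (h : ∀ i j, v.abv (M i j) ≤ 1) :
    v.abv M.det ≤ 1 := by
  rw [Matrix.det_apply]
  refine abv_sum_le v _ _ fun σ _ => ?_
  have h1 : v.abv (∏ i, M (σ i) i) ≤ 1 := by
    rw [map_prod]
    exact Finset.prod_le_one (fun i _ => v.abv.nonneg _) fun i _ => h _ _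
  rcases Int.units_eq_one_or (Equiv.Perm.sign σ) with h2 | h2
  · rw [h2, one_smul]
    exact h1
  · rw [h2, Units.neg_smul, one_smul, AbsoluteValue.map_neg]
    exact h1

/-- The value of a polynomial with integral coefficients. -/
theorem abv_eval_le {N : ℕ} {p : MvPolynomial (Fin N) k} (hp : ∀ μ, v.abv (p.coeff μ) ≤ 1)
    {x : Fin N → k} (hx : ∀ l, v.abv (x l) ≤ 1) : v.abv (eval x p) ≤ 1 := by
  classical
  rw [MvPolynomial.eval_eq]
  refine abv_sum_le v _ _ fun a _ => ?_
  rw [map_mul, map_prod]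
  refine mul_le_one₀ (hp a) (Finset.prod_nonneg fun i _ => v.abv.nonneg _) ?_
  refine Finset.prod_le_one (fun i _ => v.abv.nonneg _) fun i _ => ?_
  rw [map_pow]
  exact pow_le_one₀ (v.abv.nonneg _) (hx i)

end num

/-- A polynomial has integral coefficients at almost all places. -/
theorem finite_coeff {k : Type} [Field k] [GFF k] {N : ℕ} (p : MvPolynomial (Fin N) k) :
    {v : Place k | ∃ μ, ¬ v.abv (p.coeff μ) ≤ 1}.Finite := by
  classical
  refine (((p.support).finite_toSet).biUnion (t := fun μ => {w : Place k | w.abv (p.coeff μ) ≠ 1})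
    fun μ hμ => place_finite (by
      rw [Finset.mem_coe, MvPolynomial.mem_support_iff] at hμ
      exact hμ)).subset ?_
  rintro v ⟨μ, hμ⟩
  have h0 : p.coeff μ ≠ 0 := by
    intro h0
    rw [h0, map_zero] at hμ
    exact hμ zero_le_one
  refine Set.mem_biUnion (x := μ) (by
    rw [Finset.mem_coe, MvPolynomial.mem_support_iff]
    exact h0) ?_
  exact fun h => hμ h.le

theorem infinite_of_gff (k : Type) [Field k] [GFF k] : Infinite k := by
  obtain ⟨F, _, _, φ, -⟩ := GFF.out (k := k)
  have : Infinite (RatFunc F) := Infinite.of_injective (algebraMap (Polynomial F) (RatFunc F))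
    (RatFunc.algebraMap_injective F)
  exact Infinite.of_injective φ φ.injective

section un

variable {k A : Type} [Field k] [Ring A] [StarRing A] [Algebra k A] {N : ℕ}

/-- `x` is integral and has an integral inverse. -/
def UnR (B : Basis (Fin N) k A) (v : Place k) (x : A) : Prop :=
  ∃ y, x * y = 1 ∧ y * x = 1 ∧ Bd B v 1 x ∧ Bd B v 1 y

/-- A unit is integral with its inverse at almost all places. -/
theorem finite_un [GFF k] (B : Basis (Fin N) k A) {x : A} (hx : IsUnit x) :
    {v : Place k | ¬ UnR B v x}.Finite := by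
  obtain ⟨u, rfl⟩ := hx
  refine ((finite_nonint B (u : A)).union (finite_nonint B ((u⁻¹ : Aˣ) : A))).subset
    fun v hv => ?_
  by_contra hcon
  rw [Set.mem_union, not_or] at hcon
  simp only [Set.mem_ofPred_eq, not_not] at hcon
  exact hv ⟨((u⁻¹ : Aˣ) : A), u.mul_inv, u.inv_mul, hcon.1, hcon.2⟩

/-- An integral element of norm at least one is a unit. -/
theorem un_of_det [Nontrivial A] {v : Place k} {B : Basis (Fin N) k A} (hG : Gd B v) {z : A}
    (hz : Bd B v 1 z) (hd : 1 ≤ v.abv (Algebra.leftMulMatrix B z).det) : UnR B v z := by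
  have hN : Nonempty (Fin N) := by
    by_contra hcon
    rw [not_nonempty_iff] at hcon
    have h1 : (1 : A) = 0 := B.repr.injective (Subsingleton.elim _ _)
    exact one_ne_zero h1
  have hd0 : (Algebra.leftMulMatrix B z).det ≠ 0 := by
    intro h0
    rw [h0, map_zero] at hd
    exact absurd hd (not_le.mpr one_pos)
  have hent : ∀ i j, v.abv (Algebra.leftMulMatrix B z i j) ≤ 1 := by
    intro i j
    rw [Algebra.leftMulMatrix_eq_repr_mul]
    have h2 : Bd B v (1 * 1) (z * B j) := hG.mul' zero_le_one zero_le_one hz (by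
      intro l
      rw [B.repr_self]
      by_cases hl : j = l
      · rw [hl, Finsupp.single_eq_same, map_one]
      · rw [Finsupp.single_eq_of_ne (Ne.symm hl), map_zero]
        exact zero_le_one)
    rw [one_mul] at h2
    exact h2 i
  have hfd : FiniteDimensional k A := Module.Finite.of_basis B
  -- the inverse
  have hu : IsUnit (Algebra.leftMulMatrix B z) :=
    (Matrix.isUnit_iff_isUnit_det _).mpr (isUnit_iff_ne_zero.mpr hd0)
  have hsurj : Function.Surjective fun x : A => z * x := by
    have hinj : Function.Injective (LinearMap.mulLeft k z) := by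
      rw [← LinearMap.ker_eq_bot, LinearMap.ker_eq_bot']
      intro x hx
      have h3 := Algebra.leftMulMatrix_mulVec_repr B z x
      have h4 : z * x = 0 := hx
      rw [h4, map_zero] at h3
      have h5 : (fun l => B.repr x l) = 0 := by
        have h6 : (Algebra.leftMulMatrix B z)⁻¹.mulVec ((Algebra.leftMulMatrix B z).mulVec
            (B.repr x)) = (Algebra.leftMulMatrix B z)⁻¹.mulVec (0 : Fin N → k) := by
          rw [h3]
          rfl
        rw [Matrix.mulVec_mulVec, Matrix.nonsing_inv_mul _ (isUnit_iff_ne_zero.mpr hd0),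
          Matrix.one_mulVec, Matrix.mulVec_zero] at h6
        exact h6
      apply B.repr.injective
      rw [map_zero]
      ext l
      exact congrFun h5 l
    exact (LinearMap.injective_iff_surjective (f := LinearMap.mulLeft k z)).mp hinj
  obtain ⟨y, hy⟩ := hsurj 1
  have hy : z * y = 1 := hy
  have hyz : y * z = 1 := by
    have hinj : Function.Injective (LinearMap.mulLeft k z) :=
      (LinearMap.injective_iff_surjective (f := LinearMap.mulLeft k z)).mpr hsurj
    apply hinj
    change z * (y * z) = z * 1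
    rw [← mul_assoc, hy, one_mul, mul_one]
  refine ⟨y, hy, hyz, hz, fun i => ?_⟩
  have h3 : (Algebra.leftMulMatrix B z).mulVec (fun l => B.repr y l) = fun l => B.repr 1 l := by
    have h4 := Algebra.leftMulMatrix_mulVec_repr B z y
    rw [hy] at h4
    exact h4
  have h5 : (Algebra.leftMulMatrix B z).det * B.repr y i =
      ∑ j, (Algebra.leftMulMatrix B z).adjugate i j * B.repr 1 j := by
    have h6 := congrArg (Matrix.mulVec (Algebra.leftMulMatrix B z).adjugate) h3
    rw [Matrix.mulVec_mulVec, Matrix.adjugate_mul, Matrix.smul_mulVec, Matrix.one_mulVec] at h6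
    exact congrFun h6 i
  have h7 : v.abv ((Algebra.leftMulMatrix B z).det * B.repr y i) ≤ 1 := by
    rw [h5]
    refine abv_sum_le v _ _ fun j _ => ?_
    rw [map_mul]
    refine mul_le_one₀ ?_ (v.abv.nonneg _) (hG.one j)
    rw [Matrix.adjugate_apply]
    refine abv_det_le v _ fun a b => ?_
    by_cases ha : a = j
    · rw [ha, Matrix.updateRow_self]
      by_cases hb : b = i
      · rw [hb, Pi.single_eq_same, map_one]
      · rw [Pi.single_eq_of_ne hb, map_zero]
        exact zero_le_one
    · rw [Matrix.updateRow_ne ha]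
      exact hent a b
  rw [map_mul] at h7
  nlinarith [v.abv.nonneg (B.repr y i), mul_le_mul_of_nonneg_right hd
    (v.abv.nonneg (B.repr y i))]

end un

section main

variable {k K A : Type} [Field k] [Field K] [StarRing K] [Ring A] [StarRing A]
  [Algebra k K] [Algebra k A] [Algebra K A] [IsScalarTower k K A] [StarModule K A] {N n : ℕ}

theorem star_smulk (hA : Anis k K A n) (c : k) (x : A) : star (c • x) = c • star x := by
  rw [← algebraMap_smul K c x, star_smul, (hA.fixed _).mpr ⟨c, rfl⟩, algebraMap_smul]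

theorem repr_coords (hA : Anis k K A n) (B : Basis (Fin N) k A) (x : A) (i : Fin N) :
    eval (fun l => B.repr x l) (EE B i) = B.repr (x * star x - 1) i := by
  have h1 := hom_EE (MvPolynomial.eval fun l => B.repr x l) B i
  rw [h1]
  simp only [eval_X, eval_C]
  rw [map_sub, Finsupp.sub_apply]
  congr 1
  have h2 : x * star x = ∑ l, ∑ l', (B.repr x l * B.repr x l') • (B l * star (B l')) := by
    have h3 : star x = ∑ l, B.repr x l • star (B l) := by
      conv_lhs => rw [← B.sum_repr x]
      rw [star_sum]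
      exact Finset.sum_congr rfl fun l _ => star_smulk hA _ _
    rw [h3]
    conv_lhs =>
      enter [1]
      rw [← B.sum_repr x]
    rw [Finset.sum_mul_sum]
    exact Finset.sum_congr rfl fun l _ => Finset.sum_congr rfl fun l' _ => smul_mul_smul_comm _ _ _ _
  rw [h2]
  simp only [map_sum, map_smul, Finsupp.smul_apply, Finsupp.finsetSum_apply, smul_eq_mul]

theorem eval_PP (B : Basis (Fin N) k A) (I x y : A) :
    eval (fun l => B.repr x l) (PP B I y) =
      (Algebra.leftMulMatrix B (Lam2 k I y x)).det := by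
  have h1 := hom_PP (MvPolynomial.eval fun l => B.repr x l) B I y
  rw [h1]
  congr 1
  have h2 : Lam2 k I y x = ∑ l, B.repr x l • Lam2 k I y (B l) := by
    conv_lhs => rw [← B.sum_repr x]
    rw [map_sum]
    exact Finset.sum_congr rfl fun l _ => map_smul _ _ _
  rw [h2, map_sum]
  refine Finset.sum_congr rfl fun l _ => ?_
  rw [map_smul, eval_X]
  congr 1
  ext i j
  simp

/-- **LOC in characteristic two**, with the geometric input as a hypothesis. -/
theorem loc_of_geo [GFF k] (hA : Anis k K A n) (hn0 : n ≠ 0) {I : A}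
    (B : Basis (Fin N) k A) (P : A →ₗ[k] A) (hP : ∀ z, P z ∈ WiR I)
    (hG : ∀ (F : Type) [Field F] [IsAlgClosed F] (τ : K →+* F)
      (Ψ : A →+* Matrix (Fin n) (Fin n) F),
      (∀ c : K, Ψ (algebraMap K A c) = algebraMap F _ (τ c)) →
      GeoAt (Ψ I) fun l => Ψ (P (B l))) :
    ∃ (S₁ : Set (Place k)) (J : Set A), S₁.Finite ∧ J.Finite ∧ J ⊆ WiR I ∧
      (∀ y ∈ J, IsUnit (1 + y) ∧ IsUnit (I + (I + 1) * (y * y))) ∧
      ∀ v ∉ S₁, ∀ x : A, x * star x = 1 → Bd B v 1 x →
        ∃ y ∈ J, UnR B v (1 + y) ∧ UnR B v (I + (I + 1) * (y * y)) ∧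
          UnR B v ((x * I + I * x + x) * (I + (I + 1) * (y * y)) + (x * I + I * x) * y) := by
  classical
  have := infinite_of_gff k
  have := hA.simple
  have : Nontrivial A := inferInstance
  have htop := span_top hA hn0 B P hP hG
  have h1 : (1 : MvPolynomial (Fin N) k) ∈ Submodule.span (MvPolynomial (Fin N) k)
      ({a | ∃ i, a = EE B i} ∪ {a | ∃ y ∈ WiR I, IsUnit (1 + y) ∧
        IsUnit (I + (I + 1) * (y * y)) ∧ a = PP B I y}) := by
    change (1 : MvPolynomial (Fin N) k) ∈ Ideal.span _
    rw [htop]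
    exact Submodule.mem_top
  obtain ⟨T, hT, h2⟩ := Submodule.mem_span_finite_of_mem_span h1
  rw [Submodule.mem_span_finset] at h2
  obtain ⟨f, -, hf⟩ := h2
  let Y : MvPolynomial (Fin N) k → A := fun a =>
    if h : ∃ y ∈ WiR I, IsUnit (1 + y) ∧ IsUnit (I + (I + 1) * (y * y)) ∧ a = PP B I y
      then h.choose else 0
  have hY : ∀ a, (∃ y ∈ WiR I, IsUnit (1 + y) ∧ IsUnit (I + (I + 1) * (y * y)) ∧
      a = PP B I y) → Y a ∈ WiR I ∧ IsUnit (1 + Y a) ∧ IsUnit (I + (I + 1) * (Y a * Y a)) ∧
        a = PP B I (Y a) := by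
    intro a h
    have h3 : Y a = h.choose := dif_pos h
    rw [h3]
    exact h.choose_spec
  obtain ⟨J, hJ⟩ : ∃ J, J = Y '' {a | a ∈ T ∧ ∃ y ∈ WiR I, IsUnit (1 + y) ∧
    IsUnit (I + (I + 1) * (y * y)) ∧ a = PP B I y} := ⟨_, rfl⟩
  have hJf : J.Finite := by
    rw [hJ]
    exact (T.finite_toSet.subset fun a ha => ha.1).image _
  have hJW : ∀ y ∈ J, y ∈ WiR I ∧ IsUnit (1 + y) ∧ IsUnit (I + (I + 1) * (y * y)) := by
    intro y hy
    rw [hJ] at hy
    obtain ⟨a, ⟨-, ha⟩, rfl⟩ := hy
    exact ⟨(hY a ha).1, (hY a ha).2.1, (hY a ha).2.2.1⟩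
  refine ⟨(⋃ a ∈ T, {v : Place k | ∃ μ, ¬ v.abv ((f a).coeff μ) ≤ 1}) ∪ {v | ¬ Gd B v} ∪
    {v | ¬ Bd B v 1 I} ∪ (⋃ y ∈ J, ({v | ¬ UnR B v (1 + y)} ∪
      {v | ¬ UnR B v (I + (I + 1) * (y * y))} ∪ {v | ¬ Bd B v 1 y})), J, ?_, hJf,
    fun y hy => (hJW y hy).1, fun y hy => (hJW y hy).2, ?_⟩
  · refine (((T.finite_toSet.biUnion fun a _ => finite_coeff (f a)).union (finite_bad B)).union
      (finite_nonint B I)).union (hJf.biUnion fun y hy => ((finite_un B (hJW y hy).2.1).union
        (finite_un B (hJW y hy).2.2)).union (finite_nonint B y))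
  · intro v hv x hx hxb
    simp only [Set.mem_union, Set.mem_iUnion, Set.mem_ofPred_eq, not_or, not_exists, not_not] at hv
    obtain ⟨⟨⟨hv1, hv2⟩, hv3⟩, hv4⟩ := hv
    -- one of the values is a unit
    have h3 : ∃ a ∈ T, 1 ≤ v.abv (eval (fun l => B.repr x l) a) := by
      by_contra hcon
      push Not at hcon
      have h4 := congrArg (eval fun l => B.repr x l) hf
      rw [map_sum, map_one] at h4
      have h5 : v.abv (∑ a ∈ T, eval (fun l => B.repr x l) (f a • a)) < 1 := by
        refine abv_sum_lt v _ _ fun a ha => ?_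
        rw [smul_eq_mul, map_mul, map_mul]
        have h6 := abv_eval_le v (fun μ => hv1 a ha μ) hxb
        calc _ ≤ 1 * v.abv (eval (fun l => B.repr x l) a) :=
              mul_le_mul_of_nonneg_right h6 (v.abv.nonneg _)
          _ < 1 := by rw [one_mul]; exact hcon a ha
      rw [h4, map_one] at h5
      exact lt_irrefl _ h5
    obtain ⟨a, haT, ha⟩ := h3
    have h6 : ∃ y ∈ WiR I, IsUnit (1 + y) ∧ IsUnit (I + (I + 1) * (y * y)) ∧ a = PP B I y := by
      rcases hT haT with ⟨i, hi⟩ | h7
      · rw [hi, repr_coords hA, hx, sub_self, map_zero, Finsupp.zero_apply, map_zero] at ha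
        exact absurd ha (not_le.mpr one_pos)
      · exact h7
    obtain ⟨-, -, -, h7⟩ := hY a h6
    have hyJ : Y a ∈ J := by
      rw [hJ]
      exact ⟨a, ⟨haT, h6⟩, rfl⟩
    obtain ⟨y, hy⟩ : ∃ y, y = Y a := ⟨_, rfl⟩
    rw [← hy] at h7 hyJ
    obtain ⟨⟨hu1, hu2⟩, hu3⟩ := hv4 y hyJ
    rw [h7, eval_PP] at ha
    have m1 : ∀ {p q : A}, Bd B v 1 p → Bd B v 1 q → Bd B v 1 (p * q) := by
      intro p q hp hq
      have h8 := hv2.mul' zero_le_one zero_le_one hp hq
      rwa [one_mul] at h8
    have hz : Bd B v 1 ((x * I + I * x + x) * (I + (I + 1) * (y * y)) + (x * I + I * x) * y) :=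
      (m1 (((m1 hxb hv3).add (m1 hv3 hxb)).add hxb)
        (hv3.add (m1 (hv3.add hv2.one) (m1 hu3 hu3)))).add
        (m1 ((m1 hxb hv3).add (m1 hv3 hxb)) hu3)
    rw [Lam2_apply] at ha
    exact ⟨y, hyJ, hu1, hu2, un_of_det hv2 hz ha⟩

end main

end Vale.Agent.P011.H44.C2
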