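import Vale.Agent.P011.H698.Bd
import Vale.Agent.P011.H519.SpanCSA
import Vale.Agent.P011.H519.SplitPlaceK

/-!
# Characteristic two, LOC: the value at a point over an algebraically closed field

Twin of `H974/LocPt` for central simple algebras with an involution, in characteristic two letters:
`star I = I + 1`, elements `y` with `y I = (I + 1) y`.
-/

open Module

set_option linter.unusedSectionVars false

namespace Vale.Agent.P011.H44.C2

open Vale.Agent.P011.H738

/-! ### Matrices -/

section mat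

variable {F : Type} [Field F] {n N : ℕ}

/-- The product which is made invertible. -/
def Z2 (J X Y : Matrix (Fin n) (Fin n) F) : Matrix (Fin n) (Fin n) F :=
  (X * J + J * X + X) * (J + (J + 1) * (Y * Y)) + (X * J + J * X) * Y

/-- The linear combination of a family. -/
def Y2 (w : Fin N → Matrix (Fin n) (Fin n) F) (c : Fin N → F) : Matrix (Fin n) (Fin n) F :=
  ∑ l, c l • w l

theorem Z2_sum {ι : Type*} (J Y : Matrix (Fin n) (Fin n) F) (t : Finset ι)
    (c : ι → F) (M : ι → Matrix (Fin n) (Fin n) F) :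
    Z2 J (∑ l ∈ t, c l • M l) Y = ∑ l ∈ t, c l • Z2 J (M l) Y := by
  classical
  have h0 : Z2 J 0 Y = 0 := by
    simp [Z2]
  have h1 : ∀ (a : F) (A A' : Matrix (Fin n) (Fin n) F),
      Z2 J (a • A + A') Y = a • Z2 J A Y + Z2 J A' Y := by
    intro a A A'
    simp only [Z2, mul_add, add_mul, mul_smul_comm, smul_mul_assoc, smul_add]
    abel
  induction t using Finset.induction_on with
  | empty => rw [Finset.sum_empty, Finset.sum_empty, h0]
  | insert a t ha ih => rw [Finset.sum_insert ha, Finset.sum_insert ha, h1, ih]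

/-- The ranks of complementary idempotents. -/
theorem rank_idem (e : Matrix (Fin n) (Fin n) F) (he : e * e = e) :
    e.rank + (1 - e).rank = n := by
  have h1 := LinearMap.finrank_range_add_finrank_ker e.mulVecLin
  have h2 : LinearMap.ker e.mulVecLin = LinearMap.range (1 - e).mulVecLin := by
    ext x
    rw [LinearMap.mem_ker, LinearMap.mem_range]
    constructor
    · intro h
      refine ⟨x, ?_⟩
      rw [Matrix.mulVecLin_apply, Matrix.sub_mulVec, Matrix.one_mulVec]
      rw [Matrix.mulVecLin_apply] at h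
      rw [h, sub_zero]
    · rintro ⟨y, rfl⟩
      rw [Matrix.mulVecLin_apply, Matrix.mulVecLin_apply, Matrix.mulVec_mulVec, mul_sub, mul_one,
        he, sub_self, Matrix.zero_mulVec]
  rw [h2] at h1
  rw [Module.finrank_fin_fun] at h1
  exact h1

end mat

section pt

variable {k K A : Type} [Field k] [Field K] [StarRing K] [Ring A] [StarRing A]
  [Algebra k K] [Algebra k A] [Algebra K A] [IsScalarTower k K A] [StarModule K A]

/-- The product which is made invertible, as a linear map. -/
def Lam2 (k : Type) {A : Type} [Field k] [Ring A] [Algebra k A] (I y : A) : A →ₗ[k] A where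
  toFun z := (z * I + I * z + z) * (I + (I + 1) * (y * y)) + (z * I + I * z) * y
  map_add' a b := by noncomm_ring
  map_smul' c a := by
    rw [RingHom.id_apply]
    simp only [mul_smul_comm, smul_mul_assoc, ← smul_add]

theorem Lam2_apply (I y z : A) :
    Lam2 k I y z = (z * I + I * z + z) * (I + (I + 1) * (y * y)) + (z * I + I * z) * y := rfl

variable {F : Type} [Field F] {n N : ℕ} {τ : K →+* F} {Ψ : A →+* Matrix (Fin n) (Fin n) F}

theorem Psi_smul (hΨ : ∀ c : K, Ψ (algebraMap K A c) = algebraMap F _ (τ c)) (c : K) (x : A) :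
    Ψ (algebraMap K A c * x) = τ c • Ψ x := by
  rw [map_mul, hΨ, ← Algebra.smul_def]

theorem Psi_smulk (hΨ : ∀ c : K, Ψ (algebraMap K A c) = algebraMap F _ (τ c)) (c : k) (x : A) :
    Ψ (c • x) = τ (algebraMap k K c) • Ψ x := by
  rw [Algebra.smul_def, IsScalarTower.algebraMap_apply k K A, Psi_smul hΨ]

theorem Psi_sum (hΨ : ∀ c : K, Ψ (algebraMap K A c) = algebraMap F _ (τ c))
    (B : Basis (Fin N) k A) (x : A) :
    Ψ x = ∑ l, τ (algebraMap k K (B.repr x l)) • Ψ (B l) := by
  conv_lhs => rw [← B.sum_repr x]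
  rw [map_sum]
  exact Finset.sum_congr rfl fun l _ => Psi_smulk hΨ _ _

theorem Psi_Lam2 (I y z : A) : Ψ (Lam2 k I y z) = Z2 (Ψ I) (Ψ z) (Ψ y) := by
  rw [Lam2_apply, Z2]
  simp only [map_add, map_mul, map_one]

/-- The second homomorphism. -/
def PsiS (Ψ : A →+* Matrix (Fin n) (Fin n) F) : A →+* Matrix (Fin n) (Fin n) F where
  toFun y := (Ψ (star y)).transpose
  map_one' := by rw [star_one, map_one, Matrix.transpose_one]
  map_mul' y z := by rw [star_mul, map_mul, Matrix.transpose_mul]
  map_zero' := by rw [star_zero, map_zero, Matrix.transpose_zero]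
  map_add' y z := by rw [star_add, map_add, Matrix.transpose_add]

theorem PsiS_scalar (hΨ : ∀ c : K, Ψ (algebraMap K A c) = algebraMap F _ (τ c)) (c : K) :
    PsiS Ψ (algebraMap K A c) = algebraMap F _ ((τ.comp (starRingEnd K)) c) := by
  change (Ψ (star (algebraMap K A c))).transpose = _
  rw [← algebraMap_star_comm, hΨ, Matrix.algebraMap_eq_diagonal,
    Matrix.diagonal_transpose, ← Matrix.algebraMap_eq_diagonal]
  rfl

/-- The images of the basis under the two homomorphisms are linearly independent. -/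
theorem linInd (hA : Anis k K A n) (hn0 : n ≠ 0)
    (hΨ : ∀ c : K, Ψ (algebraMap K A c) = algebraMap F _ (τ c)) (B : Basis (Fin N) k A)
    (v : Fin N → F) (h1 : ∑ l, v l • Ψ (B l) = 0) (h2 : ∑ l, v l • PsiS Ψ (B l) = 0) :
    v = 0 := by
  have := hA.central
  have := hA.simple
  let τ' : Bool → K →+* F := fun b => if b then τ else τ.comp (starRingEnd K)
  let Ψ' : Bool → A →+* Matrix (Fin n) (Fin n) F := fun b => if b then Ψ else PsiS Ψ
  have hne : τ ≠ τ.comp (starRingEnd K) := by
    intro h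
    obtain ⟨x, hx⟩ := hA.star_ne
    have h3 := DFunLike.congr_fun h x
    rw [RingHom.comp_apply, starRingEnd_apply] at h3
    exact hx (τ.injective h3).symm
  have hτ' : Function.Injective τ' := by
    intro a b hab
    cases a <;> cases b
    · rfl
    · exact absurd hab.symm hne
    · exact absurd hab hne
    · rfl
  have hf : ∀ t (c : K), Ψ' t (algebraMap K A c) = algebraMap F _ (τ' t c) := by
    intro t c
    cases t
    · exact PsiS_scalar hΨ c
    · exact hΨ c
  have htop := H519.span_pi_eq_top hA.finrank_eq hn0 hτ' Ψ' hf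
  have hk : ∀ c : k, τ (star (algebraMap k K c)) = τ (algebraMap k K c) := fun c => by
    rw [(hA.fixed _).mpr ⟨c, rfl⟩]
  have h3 : ∀ (x : A) (b : Bool), Ψ' b x = ∑ l, τ (algebraMap k K (B.repr x l)) • Ψ' b (B l) := by
    intro x b
    cases b
    · change PsiS Ψ x = ∑ l, _ • PsiS Ψ (B l)
      rw [Psi_sum (PsiS_scalar hΨ) B x]
      refine Finset.sum_congr rfl fun l _ => ?_
      rw [RingHom.comp_apply, starRingEnd_apply, hk]
    · exact Psi_sum hΨ B x
  have h4 : (⊤ : Submodule F (Bool → Matrix (Fin n) (Fin n) F)) ≤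
      Submodule.span F (Set.range fun (l : Fin N) (b : Bool) => Ψ' b (B l)) := by
    rw [← htop, Submodule.span_le]
    rintro _ ⟨x, rfl⟩
    have h5 : (fun t => Ψ' t x) =
        ∑ l, τ (algebraMap k K (B.repr x l)) • fun b => Ψ' b (B l) := by
      funext b
      rw [Finset.sum_apply, h3]
      rfl
    change (fun t => Ψ' t x) ∈ _
    rw [h5]
    exact Submodule.sum_mem _ fun l _ => Submodule.smul_mem _ _ (Submodule.subset_span ⟨l, rfl⟩)
  have hN : N = 2 * n ^ 2 := by
    have h5 := H519.finrank_of_anis hA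
    rwa [finrank_eq_card_basis B, Fintype.card_fin] at h5
  have hli : LinearIndependent F fun (l : Fin N) (b : Bool) => Ψ' b (B l) := by
    refine linearIndependent_of_top_le_span_of_card_eq_finrank h4 ?_
    rw [Fintype.card_fin, Module.finrank_pi_fintype, Finset.sum_const, Finset.card_univ,
      Fintype.card_bool, Module.finrank_matrix, Fintype.card_fin, Module.finrank_self, hN]
    ring
  have h6 := Fintype.linearIndependent_iff.mp hli v (by
    funext b
    rw [Finset.sum_apply]
    cases b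
    · exact h2
    · exact h1)
  exact funext h6

/-- The determinant of the multiplication. -/
theorem det_mul_ne (hA : Anis k K A n) (hn0 : n ≠ 0)
    (hΨ : ∀ c : K, Ψ (algebraMap K A c) = algebraMap F _ (τ c)) (B : Basis (Fin N) k A)
    (Λ : Fin N → A) (x : Fin N → F)
    (h1 : (∑ l, x l • Ψ (Λ l)).det ≠ 0) (h2 : (∑ l, x l • PsiS Ψ (Λ l)).det ≠ 0) :
    (∑ l, x l • (Algebra.leftMulMatrix B (Λ l)).map (τ.comp (algebraMap k K))).det ≠ 0 := by
  intro h0
  obtain ⟨v, hv0, hv⟩ := Matrix.exists_mulVec_eq_zero_iff.mpr h0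
  have key : ∀ (τ₁ : K →+* F) (Ψ₁ : A →+* Matrix (Fin n) (Fin n) F),
      (∀ c : K, Ψ₁ (algebraMap K A c) = algebraMap F _ (τ₁ c)) →
      (∀ c : k, τ₁ (algebraMap k K c) = τ (algebraMap k K c)) →
      (∑ l, x l • Ψ₁ (Λ l)).det ≠ 0 → ∑ l, v l • Ψ₁ (B l) = 0 := by
    intro τ₁ Ψ₁ hΨ₁ hk hd
    have h3 : (∑ l, x l • Ψ₁ (Λ l)) * ∑ j, v j • Ψ₁ (B j) = 0 := by
      have h4 : ∀ j, (∑ l, x l • Ψ₁ (Λ l)) * Ψ₁ (B j) = ∑ i,
          (∑ l, x l • (Algebra.leftMulMatrix B (Λ l)).map (τ.comp (algebraMap k K))) i j •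
            Ψ₁ (B i) := by
        intro j
        rw [Finset.sum_mul]
        calc ∑ l, x l • Ψ₁ (Λ l) * Ψ₁ (B j) = ∑ l, ∑ i, (x l *
              τ (algebraMap k K (Algebra.leftMulMatrix B (Λ l) i j))) • Ψ₁ (B i) := by
              refine Finset.sum_congr rfl fun l _ => ?_
              rw [smul_mul_assoc, ← map_mul, Psi_sum hΨ₁ B (Λ l * B j), Finset.smul_sum]
              refine Finset.sum_congr rfl fun i _ => ?_
              rw [smul_smul, hk, Algebra.leftMulMatrix_eq_repr_mul]
          _ = ∑ i, ∑ l, (x l *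
              τ (algebraMap k K (Algebra.leftMulMatrix B (Λ l) i j))) • Ψ₁ (B i) :=
              Finset.sum_comm
          _ = _ := by
              refine Finset.sum_congr rfl fun i _ => ?_
              rw [Matrix.sum_apply, Finset.sum_smul]
              rfl
      calc _ = ∑ j, v j • ((∑ l, x l • Ψ₁ (Λ l)) * Ψ₁ (B j)) := by
            rw [Finset.mul_sum]
            exact Finset.sum_congr rfl fun j _ => mul_smul_comm _ _ _
        _ = ∑ j, ∑ i, (v j * (∑ l, x l •
            (Algebra.leftMulMatrix B (Λ l)).map (τ.comp (algebraMap k K))) i j) • Ψ₁ (B i) := by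
            refine Finset.sum_congr rfl fun j _ => ?_
            rw [h4, Finset.smul_sum]
            exact Finset.sum_congr rfl fun i _ => smul_smul _ _ _
        _ = ∑ i, ∑ j, (v j * (∑ l, x l •
            (Algebra.leftMulMatrix B (Λ l)).map (τ.comp (algebraMap k K))) i j) • Ψ₁ (B i) :=
            Finset.sum_comm
        _ = 0 := by
            refine Finset.sum_eq_zero fun i _ => ?_
            rw [← Finset.sum_smul]
            have h5 := congrFun hv i
            rw [Matrix.mulVec, dotProduct, Pi.zero_apply] at h5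
            rw [show (∑ j, v j * (∑ l, x l •
              (Algebra.leftMulMatrix B (Λ l)).map (τ.comp (algebraMap k K))) i j) = 0 by
                rw [← h5]
                exact Finset.sum_congr rfl fun j _ => mul_comm _ _, zero_smul]
    have hu : IsUnit (∑ l, x l • Ψ₁ (Λ l)).det := isUnit_iff_ne_zero.mpr hd
    calc ∑ l, v l • Ψ₁ (B l) = (∑ l, x l • Ψ₁ (Λ l))⁻¹ * ((∑ l, x l • Ψ₁ (Λ l)) *
          ∑ l, v l • Ψ₁ (B l)) := by rw [← mul_assoc, Matrix.nonsing_inv_mul _ hu, one_mul]
      _ = 0 := by rw [h3, mul_zero]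
  refine hv0 (linInd hA hn0 hΨ B v (key τ Ψ hΨ (fun _ => rfl) h1)
    (key _ (PsiS Ψ) (PsiS_scalar hΨ) (fun c => ?_) h2))
  rw [RingHom.comp_apply, starRingEnd_apply, (hA.fixed _).mpr ⟨c, rfl⟩]

/-- An element with invertible image in a matrix ring is a unit. -/
theorem isUnit_of_det [FiniteDimensional K A] [IsSimpleRing A] [NeZero n]
    (Ψ : A →+* Matrix (Fin n) (Fin n) F) {z : A} (hz : (Ψ z).det ≠ 0) : IsUnit z := by
  have hinj : Function.Injective Ψ := Ψ.injective
  have : IsArtinianRing A := IsArtinianRing.of_finite K A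
  refine IsArtinianRing.isUnit_of_mem_nonZeroDivisors ?_
  have hu : IsUnit (Ψ z) := (Matrix.isUnit_iff_isUnit_det _).mpr (isUnit_iff_ne_zero.mpr hz)
  rw [mem_nonZeroDivisors_iff]
  refine ⟨fun x hx => hinj ?_, fun x hx => hinj ?_⟩
  · have h1 := congrArg Ψ hx
    rw [map_mul, map_zero] at h1
    rw [map_zero]
    exact (hu.mul_right_eq_zero).mp h1
  · have h1 := congrArg Ψ hx
    rw [map_mul, map_zero] at h1
    rw [map_zero]
    exact (hu.mul_left_eq_zero).mp h1

/-- The rank of the idempotent `Ψ I + ω`. -/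
theorem rank_half {m : ℕ} (h2 : (2 : F) = 0) (hn : n = 2 * m) {I w : A} {ν : k}
    (hI : I * I = I + algebraMap k A ν)
    (hΨ : ∀ c : K, Ψ (algebraMap K A c) = algebraMap F _ (τ c)) {ω : F}
    (hω : ω * ω + ω = τ (algebraMap k K ν)) (hwu : IsUnit w) (hw : w * I = (I + 1) * w) :
    (Ψ I + algebraMap F _ ω).rank = m ∧ (1 - (Ψ I + algebraMap F _ ω)).rank = m := by
  have h2M : ∀ M : Matrix (Fin n) (Fin n) F, M + M = 0 := by
    intro M
    rw [← two_smul F M, h2, zero_smul]
  have hneg : ∀ M : Matrix (Fin n) (Fin n) F, -M = M := fun M =>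
    (neg_eq_of_add_eq_zero_left (h2M M))
  have hJ : Ψ I * Ψ I = Ψ I + algebraMap F _ (ω * ω + ω) := by
    rw [← map_mul, hI, map_add, IsScalarTower.algebraMap_apply k K A, hΨ, hω]
  obtain ⟨e, he⟩ : ∃ e, e = Ψ I + algebraMap F _ ω := ⟨_, rfl⟩
  have hee : e * e = e := by
    rw [he, add_mul, mul_add, mul_add, hJ, map_add, map_mul,
      Algebra.commutes ω (Ψ I)]
    have h3 := h2M (Ψ I * algebraMap F _ ω)
    have h4 := h2M (algebraMap F (Matrix (Fin n) (Fin n) F) ω * algebraMap F _ ω)
    calc _ = Ψ I + algebraMap F _ ω + (Ψ I * algebraMap F _ ω + Ψ I * algebraMap F _ ω) +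
          (algebraMap F (Matrix (Fin n) (Fin n) F) ω * algebraMap F _ ω +
            algebraMap F _ ω * algebraMap F _ ω) := by abel
      _ = _ := by rw [h3, h4, add_zero, add_zero]
  have hu : IsUnit (Ψ w).det := (Matrix.isUnit_iff_isUnit_det _).mp (hwu.map Ψ)
  have hwe : Ψ w * e = (1 - e) * Ψ w := by
    rw [he, mul_add, ← map_mul, hw, map_mul, map_add, map_one, sub_eq_add_neg, hneg,
      ← Algebra.commutes ω (Ψ w)]
    noncomm_ring
  have h3 := congrArg Matrix.rank hwe
  rw [Matrix.rank_mul_eq_right_of_isUnit_det _ _ hu,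
    Matrix.rank_mul_eq_left_of_isUnit_det _ _ hu] at h3
  have h4 := rank_idem e hee
  rw [← he]
  omega

end pt

end Vale.Agent.P011.H44.C2
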