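import Vale.Agent.P011.H44.C2.Pt
import Vale.Agent.P011.H268.Csa

/-!
# Characteristic two, LOC: the element at a point, and the certificate

Twin of `H974/LocPt2` and `H974/LocCert`.
-/

open Module MvPolynomial

set_option linter.unusedSectionVars false

namespace Vale.Agent.P011.H44.C2

open Vale.Agent.P011.H738

section pt

variable {k K A : Type} [Field k] [Field K] [StarRing K] [Ring A] [StarRing A]
  [Algebra k K] [Algebra k A] [Algebra K A] [IsScalarTower k K A] [StarModule K A]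

/-- The elements `y` with `star y = y` and `y * I = (I + 1) * y`. -/
def WiR (I : A) : Set A := {y | star y = y ∧ y * I = (I + 1) * y}

/-- The geometric input at one point: a nonzero polynomial in the coordinates whose nonzero values
give invertible matrices. -/
def GeoAt {F : Type} [Field F] {n N : ℕ} (J : Matrix (Fin n) (Fin n) F)
    (w : Fin N → Matrix (Fin n) (Fin n) F) : Prop :=
  ∀ X : Matrix (Fin n) (Fin n) F, X.det ≠ 0 → ∃ p : MvPolynomial (Fin N) F, p ≠ 0 ∧
    ∀ c, eval c p ≠ 0 → (Z2 J X (Y2 w c)).det ≠ 0 ∧ (1 + Y2 w c).det ≠ 0 ∧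
      (J + (J + 1) * (Y2 w c * Y2 w c)).det ≠ 0

variable {F : Type} [Field F] {n N : ℕ} {τ : K →+* F} {Ψ : A →+* Matrix (Fin n) (Fin n) F}

/-- **The element `y` at a point.** -/
theorem exists_y_pt [Infinite k] (hA : Anis k K A n) (hn0 : n ≠ 0) {I : A}
    (hΨ : ∀ c : K, Ψ (algebraMap K A c) = algebraMap F _ (τ c)) (B : Basis (Fin N) k A)
    (P : A →ₗ[k] A) (hP : ∀ z, P z ∈ WiR I)
    (hG : GeoAt (Ψ I) fun l => Ψ (P (B l))) (hG' : GeoAt (PsiS Ψ I) fun l => PsiS Ψ (P (B l)))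
    (x : Fin N → F)
    (hx : ∀ i, ∑ l, ∑ l', x l * x l' * τ (algebraMap k K (B.repr (B l * star (B l')) i)) =
      τ (algebraMap k K (B.repr 1 i))) :
    ∃ y ∈ WiR I, IsUnit (1 + y) ∧ IsUnit (I + (I + 1) * (y * y)) ∧
      (∑ l, x l • (Algebra.leftMulMatrix B (Lam2 k I y (B l))).map
        (τ.comp (algebraMap k K))).det ≠ 0 := by
  have := hA.simple
  have : NeZero n := ⟨hn0⟩
  have : FiniteDimensional K A := Module.finite_of_finrank_pos (by
    rw [hA.finrank_eq]
    positivity)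
  have hstk : ∀ c : k, star (algebraMap k K c) = algebraMap k K c :=
    fun c => (hA.fixed _).mpr ⟨c, rfl⟩
  obtain ⟨X, hX⟩ : ∃ X, X = ∑ l, x l • Ψ (B l) := ⟨_, rfl⟩
  obtain ⟨X', hX'⟩ : ∃ X', X' = ∑ l, x l • PsiS Ψ (B l) := ⟨_, rfl⟩
  have h1 : X * X'.transpose = 1 := by
    have h2 : X'.transpose = ∑ l, x l • Ψ (star (B l)) := by
      rw [hX', Matrix.transpose_sum]
      refine Finset.sum_congr rfl fun l _ => ?_
      rw [Matrix.transpose_smul]
      change _ • ((Ψ (star (B l))).transpose).transpose = _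
      rw [Matrix.transpose_transpose]
    rw [h2, hX, Finset.sum_mul_sum]
    calc ∑ l, ∑ l', (x l • Ψ (B l)) * (x l' • Ψ (star (B l'))) = ∑ l, ∑ l', ∑ i,
          (x l * x l' * τ (algebraMap k K (B.repr (B l * star (B l')) i))) • Ψ (B i) := by
          refine Finset.sum_congr rfl fun l _ => Finset.sum_congr rfl fun l' _ => ?_
          rw [smul_mul_smul_comm, ← map_mul, Psi_sum hΨ B (B l * star (B l')), Finset.smul_sum]
          exact Finset.sum_congr rfl fun i _ => smul_smul _ _ _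
      _ = ∑ i, (∑ l, ∑ l', x l * x l' * τ (algebraMap k K (B.repr (B l * star (B l')) i))) •
            Ψ (B i) := by
          simp only [Finset.sum_smul]
          calc _ = ∑ l, ∑ i, ∑ l', (x l * x l' *
                τ (algebraMap k K (B.repr (B l * star (B l')) i))) • Ψ (B i) :=
                Finset.sum_congr rfl fun l _ => Finset.sum_comm
            _ = _ := Finset.sum_comm
      _ = ∑ i, τ (algebraMap k K (B.repr 1 i)) • Ψ (B i) :=
          Finset.sum_congr rfl fun i _ => by rw [hx]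
      _ = 1 := by rw [← Psi_sum hΨ B 1, map_one]
  have h2 := congrArg Matrix.det h1
  rw [Matrix.det_mul, Matrix.det_transpose, Matrix.det_one] at h2
  have hXd : X.det ≠ 0 := left_ne_zero_of_mul_eq_one h2
  have hXd' : X'.det ≠ 0 := right_ne_zero_of_mul_eq_one h2
  obtain ⟨p, hp, hp'⟩ := hG X hXd
  obtain ⟨q, hq, hq'⟩ := hG' X' hXd'
  obtain ⟨φ, hφ⟩ : ∃ φ : k →+* F, φ = τ.comp (algebraMap k K) := ⟨_, rfl⟩
  obtain ⟨c, hc⟩ : ∃ c : Fin N → k, eval (fun l => φ (c l)) (p * q) ≠ 0 := by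
    by_contra hcon
    push Not at hcon
    refine mul_ne_zero hp hq (MvPolynomial.funext_set (fun _ => Set.range φ)
      (fun _ => Set.infinite_range_of_injective φ.injective) fun z hz => ?_)
    choose c hc using fun l => hz l (Set.mem_univ l)
    rw [map_zero, ← hcon c]
    congr 2
    funext l
    exact (hc l).symm
  rw [map_mul] at hc
  have hyc : ∀ (τ₁ : K →+* F) (Ψ₁ : A →+* Matrix (Fin n) (Fin n) F),
      (∀ c : K, Ψ₁ (algebraMap K A c) = algebraMap F _ (τ₁ c)) →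
      (∀ c : k, τ₁ (algebraMap k K c) = φ c) →
      Y2 (fun l => Ψ₁ (P (B l))) (fun l => φ (c l)) = Ψ₁ (P (∑ l, c l • B l)) := by
    intro τ₁ Ψ₁ hΨ₁ hk
    rw [map_sum, map_sum, Y2]
    refine Finset.sum_congr rfl fun l _ => ?_
    rw [map_smul, Psi_smulk hΨ₁, hk]
  have hy1 := hyc τ Ψ hΨ (fun c => by rw [hφ]; rfl)
  have hy2 := hyc _ (PsiS Ψ) (PsiS_scalar hΨ) (fun c => by
    rw [RingHom.comp_apply, starRingEnd_apply, hstk, hφ]
    rfl)
  obtain ⟨h3, h4, h4'⟩ := hp' _ (left_ne_zero_of_mul hc)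
  obtain ⟨h5, -, -⟩ := hq' _ (right_ne_zero_of_mul hc)
  rw [hy1] at h3 h4 h4'
  rw [hy2] at h5
  refine ⟨P (∑ l, c l • B l), hP _, ?_, ?_, ?_⟩
  · refine isUnit_of_det (K := K) Ψ ?_
    rw [map_add, map_one]
    exact h4
  · refine isUnit_of_det (K := K) Ψ ?_
    rw [map_add, map_mul, map_add, map_one, map_mul]
    exact h4'
  · refine det_mul_ne hA hn0 hΨ B _ x ?_ ?_
    · have h6 : ∑ l, x l • Ψ (Lam2 k I (P (∑ l, c l • B l)) (B l)) =
          Z2 (Ψ I) X (Ψ (P (∑ l, c l • B l))) := by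
        rw [hX, Z2_sum]
        exact Finset.sum_congr rfl fun l _ => by rw [Psi_Lam2]
      rw [h6]
      exact h3
    · have h6 : ∑ l, x l • PsiS Ψ (Lam2 k I (P (∑ l, c l • B l)) (B l)) =
          Z2 (PsiS Ψ I) X' (PsiS Ψ (P (∑ l, c l • B l))) := by
        rw [hX', Z2_sum]
        exact Finset.sum_congr rfl fun l _ => by rw [Psi_Lam2]
      rw [h6]
      exact h5

end pt

section cert

variable {k K A : Type} [Field k] [Field K] [StarRing K] [Ring A] [StarRing A]
  [Algebra k K] [Algebra k A] [Algebra K A] [IsScalarTower k K A] [StarModule K A] {N : ℕ}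

/-- The equations of the unitary group. -/
noncomputable def EE (B : Basis (Fin N) k A) (i : Fin N) : MvPolynomial (Fin N) k :=
  (∑ l, ∑ l', X l * X l' * C (B.repr (B l * star (B l')) i)) - C (B.repr 1 i)

/-- The value. -/
noncomputable def PP (B : Basis (Fin N) k A) (I y : A) : MvPolynomial (Fin N) k :=
  (∑ l, (X l : MvPolynomial (Fin N) k) •
    (Algebra.leftMulMatrix B (Lam2 k I y (B l))).map C).det

theorem hom_EE {F : Type} [CommRing F] (φ : MvPolynomial (Fin N) k →+* F)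
    (B : Basis (Fin N) k A) (i : Fin N) : φ (EE B i) =
      (∑ l, ∑ l', φ (X l) * φ (X l') * φ (C (B.repr (B l * star (B l')) i))) -
        φ (C (B.repr 1 i)) := by
  rw [EE, map_sub, map_sum]
  congr 1
  refine Finset.sum_congr rfl fun l _ => ?_
  rw [map_sum]
  exact Finset.sum_congr rfl fun l' _ => by rw [map_mul, map_mul]

theorem hom_PP {F : Type} [CommRing F] (φ : MvPolynomial (Fin N) k →+* F)
    (B : Basis (Fin N) k A) (I y : A) : φ (PP B I y) =
      (∑ l, φ (X l) • (Algebra.leftMulMatrix B (Lam2 k I y (B l))).map (φ.comp C)).det := by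
  rw [PP, RingHom.map_det, map_sum]
  congr 1
  refine Finset.sum_congr rfl fun l _ => ?_
  ext i j
  simp [RingHom.mapMatrix_apply]

/-- **The certificate.** -/
theorem span_top [Infinite k] {n : ℕ} (hA : Anis k K A n) (hn0 : n ≠ 0) {I : A}
    (B : Basis (Fin N) k A) (P : A →ₗ[k] A) (hP : ∀ z, P z ∈ WiR I)
    (hG : ∀ (F : Type) [Field F] [IsAlgClosed F] (τ : K →+* F)
      (Ψ : A →+* Matrix (Fin n) (Fin n) F),
      (∀ c : K, Ψ (algebraMap K A c) = algebraMap F _ (τ c)) →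
      GeoAt (Ψ I) fun l => Ψ (P (B l))) :
    Ideal.span ({a | ∃ i, a = EE B i} ∪ {a | ∃ y ∈ WiR I, IsUnit (1 + y) ∧
      IsUnit (I + (I + 1) * (y * y)) ∧ a = PP B I y}) = ⊤ := by
  by_contra hne
  obtain ⟨M, hM, hle⟩ := Ideal.exists_le_maximal _ hne
  let _ : Field (MvPolynomial (Fin N) k ⧸ M) := Ideal.Quotient.field M
  obtain ⟨φ, hφ⟩ : ∃ φ : MvPolynomial (Fin N) k →+* AlgebraicClosure (MvPolynomial (Fin N) k ⧸ M),
    φ = (algebraMap (MvPolynomial (Fin N) k ⧸ M) _).comp (Ideal.Quotient.mk M) := ⟨_, rfl⟩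
  have h0 : ∀ a ∈ M, φ a = 0 := by
    intro a ha
    rw [hφ, RingHom.comp_apply, Ideal.Quotient.eq_zero_iff_mem.mpr ha, map_zero]
  let _ : Algebra k (AlgebraicClosure (MvPolynomial (Fin N) k ⧸ M)) := (φ.comp C).toAlgebra
  have hquad := H519.quad hA.fixed hA.star_ne
  have := hquad.1
  have := hA.central
  have := hA.simple
  have : FiniteDimensional K A := Module.finite_of_finrank_pos (by
    rw [hA.finrank_eq]
    positivity)
  obtain ⟨τ, hτ⟩ : ∃ τ : K →+* AlgebraicClosure (MvPolynomial (Fin N) k ⧸ M),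
      ∀ c : k, τ (algebraMap k K c) = φ (C c) :=
    ⟨(IsAlgClosed.lift (R := k) (S := K)
      (M := AlgebraicClosure (MvPolynomial (Fin N) k ⧸ M))).toRingHom, fun c =>
        (IsAlgClosed.lift (R := k) (S := K)
          (M := AlgebraicClosure (MvPolynomial (Fin N) k ⧸ M))).commutes c⟩
  let _ : Algebra K (AlgebraicClosure (MvPolynomial (Fin N) k ⧸ M)) := τ.toAlgebra
  obtain ⟨g⟩ := Vale.Agent.P011.H268.exists_split_sepClosed (K := K) (A := A)
    (E := AlgebraicClosure (MvPolynomial (Fin N) k ⧸ M)) hA.finrank_eq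
  obtain ⟨Ψ, hΨ⟩ : ∃ Ψ : A →+* Matrix (Fin n) (Fin n)
      (AlgebraicClosure (MvPolynomial (Fin N) k ⧸ M)),
      ∀ c : K, Ψ (algebraMap K A c) = algebraMap (AlgebraicClosure (MvPolynomial (Fin N) k ⧸ M))
        (Matrix (Fin n) (Fin n) (AlgebraicClosure (MvPolynomial (Fin N) k ⧸ M))) (τ c) :=
    ⟨(g : A →+* _), fun c => g.commutes c⟩
  obtain ⟨y, hy, hy1, hy1', hy2⟩ := exists_y_pt hA hn0 hΨ B P hP (hG _ τ Ψ hΨ)
    (hG _ _ (PsiS Ψ) (PsiS_scalar hΨ)) (fun l => φ (X l))
    (fun i => by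
      have h1 := h0 _ (hle (Ideal.subset_span (Or.inl ⟨i, rfl⟩)))
      rw [hom_EE, sub_eq_zero] at h1
      simp only [hτ]
      exact h1)
  have h2 := h0 _ (hle (Ideal.subset_span (Or.inr ⟨y, hy, hy1, hy1', rfl⟩)))
  rw [hom_PP] at h2
  have h3 : τ.comp (algebraMap k K) = φ.comp C := RingHom.ext fun c => hτ c
  rw [h3] at hy2
  exact hy2 h2

end cert

end Vale.Agent.P011.H44.C2
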